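import Vale.Agent.P352X.R.A2.Mon
import Vale.Agent.P352Z.P352X.R.KD.B

open Vale.Agent.P352G

/-!
# P352X, row A2: the form of `K` under translations along `b`
-/

set_option linter.all false

noncomputable section

open Filter Topology Complex
open UniformSpace (Completion)

namespace Vale.Agent.P352X.A2Z

open Vale.Agent.P352 Vale.Agent.P352.GF Vale.Agent.P352.BW Vale.Agent.P352.H496
open Vale.Agent.P132 (ModData exists_modData)

section hilbert

variable {H : Type*} [NormedAddCommGroup H] [InnerProductSpace ℂ H] [CompleteSpace H]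

end hilbert

variable {D : Type*} [NormedAddCommGroup D] [InnerProductSpace ℂ D] [GrD D] {c : CtxZ D}

lemma ugS (g : GRPZ c) : UG c.SK := UG.of (KDa.ugSZ g).zero (KDa.ugSZ g).add
  (fun t => g.S_uni va t g.na) (KDa.ugSZ g).cont

lemma ugB (g : GRPZ c) : UG (Bo c.Q) := UG.of (KDa.ugBZ c).zero (KDa.ugBZ c).add
  (fun t => g.uni _ _ _) (KDa.ugBZ c).cont

lemma ugT (g : GRPZ c) (y : V) : UG fun t : ℝ => Ut c.Q (t • y) :=
  UG.of (by rw [zero_smul, g.ut0]) (fun s t => by rw [add_smul, g.ut]) (fun t => g.uni _ _ _)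
    fun z => (c.bt.cont SN.isPair_mdot z).comp (by fun_prop)

lemma ugP (g : GRPZ c) : UG (Pb c.Q) := ugT g vb

lemma bo_pb (g : GRPZ c) (s t : ℝ) :
    Bo c.Q s * Pb c.Q t = Pb c.Q (Real.exp (-1 * s) * t) * Bo c.Q s := by
  have e : scp (Real.exp s) (Real.exp (-s)) (t • vb) = (Real.exp (-1 * s) * t) • vb :=
    null_ext (by simp) (by simp) (by simp)
  rw [Pb, Pb, ← e]
  exact g.sc_ut _ _ _ (Real.exp_pos _) (Real.exp_pos _)

lemma gn_B_P (g : GRPZ c) {ψ p b : Completion D} (hp : Gn (Pb c.Q) ψ p) (hb : Gn (Bo c.Q) ψ b)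
    (t : ℝ) : Gn (Bo c.Q) (Pb c.Q t ψ) (Pb c.Q t b + (-1 * t) • Pb c.Q t p) :=
  (ugP g).scal_shift (ugB g) (bo_pb g) hp hb t

theorem pr_tr (g : GRPZ c) {r r' s : ℝ} (hr : 0 < r) (hr' : 0 < r') (hs : 0 ≤ s)
    (h : r' * (1 + 2 * r * s) ≤ r) {ψ ψ' : Completion D} (hp : Pr (c.N (Rc r 0)) c.Om ψ ψ') :
    Pr (c.N (Rc r' 0)) c.Om (Pb c.Q (-s) ψ) (Pb c.Q (-s) ψ') :=
  KDa.pr_map (g.uni _ _ _) (g.vac _ _ _) (fun X hX => c.hN.mono _ _ (_root_.Vale.Agent.P352X.A2.rc_tr hr hr' hs h) _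
    ((g.alg _ _ _ _ one_pos H496.isLor_one X).1 hX)) hp

lemma md_der (g : GRPZ c) (r : ℝ) {x k b : Completion D} (hk : Gn c.SK x k) (hb : Gn (Bo c.Q) x b) :
    HasDerivAt (fun t : ℝ => (c.SK (r * (1 - Real.exp (-(2 * Real.pi * t)))) *
      Bo c.Q (-(2 * Real.pi * t))) x) (I • (2 * Real.pi) • (r • k - b)) 0 := by
  have h0 : HasDerivAt (fun t : ℝ => -(2 * Real.pi * t)) (-(2 * Real.pi)) 0 := by
    simpa using ((hasDerivAt_id (0 : ℝ)).const_mul (2 * Real.pi)).fun_neg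
  have h1 := (ugB g).hasDerivAt_comp h0 (hasDerivAt_const 0 x) hb
  have h2 := (ugS g).hasDerivAt_comp ((h0.exp.const_sub 1).const_mul r) h1 (k := k) (by
    simpa only [mul_zero, neg_zero, (ugB g).zero] using hk)
  refine h2.congr_deriv ?_
  simp only [mul_zero, neg_zero, (ugB g).zero, (ugS g).zero, Real.exp_zero, sub_self, map_zero]
  module

/-- **monotonicity** -/
theorem mon1 (g : GRPZ c) {u : ℝ} (h0 : 0 < u) (h1 : u < 1 / 2) {ψ k b p k' : Completion D}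
    (hk : Gn c.SK ψ k) (hb : Gn (Bo c.Q) ψ b) (hp : Gn (Pb c.Q) ψ p)
    (hk' : Gn c.SK (Pb c.Q u ψ) k') : (inner ℂ ψ k).re ≤
      (1 - 2 * u)⁻¹ * (inner ℂ (Pb c.Q u ψ) k').re + u * (inner ℂ ψ p).re := by
  have hr : 0 < (1 - 2 * u)⁻¹ := inv_pos.2 (by linarith)
  obtain ⟨E, hE⟩ := g.md 1 zero_le_one
  obtain ⟨E0, hE0⟩ := g.md _ hr.le
  obtain ⟨E', hE'⟩ := _root_.Vale.Agent.P352X.A2.mod_tr E0 (g.uni 1 GF.one (-u • vb)) (g.vac _ _ _)
    (g.alg _ _ _ _ one_pos H496.isLor_one)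
  have e : Pb c.Q (-u) (Pb c.Q u ψ) = ψ := (ugP g).neg_left u ψ
  have d1 := md_der g 1 hk hb
  have d2 := ((Pb c.Q (-u)).restrictScalars ℝ).hasFDerivAt.comp_hasDerivAt (0 : ℝ)
    (md_der g (1 - 2 * u)⁻¹ hk' (gn_B_P g hp hb u))
  simp only [← hE] at d1
  simp only [← hE0] at d2
  have d3 : HasDerivAt (fun t => E'.U t ψ) (I • Pb c.Q (-u) ((2 * Real.pi) • ((1 - 2 * u)⁻¹ • k' -
      (Pb c.Q u b + (-1 * u) • Pb c.Q u p)))) 0 := by
    rw [← map_smul]
    refine d2.congr_of_eventuallyEq (.of_forall fun t => ?_)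
    exact (congrArg _ e.symm).trans (hE' t _)
  have h2 := Mon.gen_le E E' (c.hN.mono _ _ (_root_.Vale.Agent.P352X.A2.rc_tr hr one_pos h0.le (by
    have := mul_inv_cancel₀ (show 1 - 2 * u ≠ 0 by linarith)
    linarith))) d1 d3
  rw [(ugP g).adj', neg_neg] at h2
  simp only [← Complex.coe_smul, inner_smul_right, inner_sub_right, inner_add_right, (ugP g).inn,
    re_ofReal_mul, sub_re, add_re] at h2
  have := le_of_mul_le_mul_left h2 Real.two_pi_pos
  linarith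

lemma J_pb (j : JCZ c) (t : ℝ) (z : Completion D) : c.J (Pb c.Q t z) = Pb c.Q (-t) (c.J z) := by
  have e1 : jL GF.one = GF.one := by
    funext m n
    by_cases h : n = m
    · simp only [jL, GF.one, bas, h, sj_sq, one_mul]
    · simp only [jL, GF.one, bas, if_neg h, mul_zero]
  have e2 : jr (t • vb) = -t • vb := null_ext (by simp) (by simp) (by simp)
  have := j.ug 1 GF.one (t • vb) z one_pos H496.isLor_one (.inr (.inl rfl))
  rwa [e1, e2] at this

lemma re_J (c : CtxZ D) (x y : Completion D) :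
    (inner ℂ (c.J x) (c.J y)).re = (inner ℂ x y).re := by
  rw [c.E.inner_J_J, ← inner_conj_symm, conj_re]

/-- **two sided bound** -/
theorem mon2 (g : GRPZ c) (j : JCZ c) {u : ℝ} (h0 : 0 < u) (h1 : u ≤ 1 / 4)
    {x k b p k' : Completion D} (hk : Gn c.SK x k) (hb : Gn (Bo c.Q) x b) (hp : Gn (Pb c.Q) x p)
    (hk' : Gn c.SK (Pb c.Q (-u) x) k') : |(inner ℂ (Pb c.Q (-u) x) k').re - (inner ℂ x k).re| ≤
      u * ((inner ℂ x p).re + 4 * (inner ℂ x k).re) := by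
  have a1 := mon1 g h0 (by linarith) hk' (gn_B_P g hp hb (-u)) ((ugP g).shift hp (-u)) (k' := k)
    (by rwa [(ugP g).neg_right])
  have a2 := mon1 g h0 (by linarith) (hk.anti_neg c.J fun t => j.S t x)
    (hb.anti_pos c.J fun t => by simp only [KDa.bo_eqZ, c.E.J_U])
    (hp.anti_neg c.J fun t => J_pb j t x) (k' := c.J k') (by
      have := hk'.anti_neg c.J fun t => j.S t _
      rwa [J_pb j, neg_neg] at this)
  rw [(ugP g).neg_right, (ugP g).inn] at a1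
  rw [← neg_neg u, ← J_pb j, neg_neg, re_J, re_J, re_J] at a2
  have p1 := c.kpos _ _ hk
  have p2 := c.kpos _ _ hk'
  have p3 : 0 ≤ (inner ℂ x p).re := by
    obtain ⟨h2, rfl⟩ := c.cgn_Pb.1 hp
    exact SN.Calc.form_nonneg h2 ((Kin.cone c.ct x).mono fun q hq => Kin.Cone.md_nonneg g.nb hq)
  have h2 : 0 < 1 - 2 * u := by linarith
  have h3 := mul_inv_cancel₀ h2.ne'
  have h4 : (1 - 2 * u)⁻¹ ≤ 1 + 4 * u := by
    rw [inv_le_iff_one_le_mul₀ h2]
    nlinarith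
  have h5 := mul_le_mul_of_nonneg_left a2 h2.le
  rw [mul_add, ← mul_assoc, h3] at h5
  rw [abs_le]
  constructor
  · nlinarith [mul_nonneg h0.le p1, mul_nonneg h0.le (mul_nonneg h0.le p3)]
  · nlinarith [mul_le_mul_of_nonneg_right h4 p1]

end Vale.Agent.P352X.A2Z
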